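import Vale.Agent.P236JH.HK
import Vale.Agent.P236TH.Top

/-!
# P236JH / Full : the final statement
-/

namespace Vale.Agent.P236JH

theorem full : P236K.FULL :=
  haveI : Fact (Nat.Prime 3) := ⟨Nat.prime_three⟩
  P236TH.full_of_hk hk

end Vale.Agent.P236JH
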