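import Vale.Agent.P236JB.Main
import Vale.Agent.P236JB.C.W2
import Vale.Agent.P236JC.K1_0
import Vale.Agent.P236JC.K1_1
import Vale.Agent.P236JC.K1_2
import Vale.Agent.P236JC.K1_3
import Vale.Agent.P236JC.K1_4
import Vale.Agent.P236JC.K1_5
import Vale.Agent.P236JC.K1_6
import Vale.Agent.P236JC.K1_7
import Vale.Agent.P236JC.K1_8
import Vale.Agent.P236JC.K1_9
import Vale.Agent.P236JC.K1_10
import Vale.Agent.P236JC.K1_11
import Vale.Agent.P236JC.K1_12
import Vale.Agent.P236JC.K1_13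

/-!
# P236JH : the composite in degree 1 vanishes (generated)
-/

namespace Vale.Agent.P236JH

open Vale.Agent.P236JB Vale.Agent.P236JB.Z Vale.Agent.P236JC

theorem sq1 [Fact (Nat.Prime 3)] : P236JK.Ini.SqJ 1 :=
  sq_of tabW2 ((dn k1_0).or
    ((dn k1_1).or
    ((dn k1_2).or
    ((dn k1_3).or
    ((dn k1_4).or
    ((dn k1_5).or
    ((dn k1_6).or
    ((dn k1_7).or
    ((dn k1_8).or
    ((dn k1_9).or
    ((dn k1_10).or
    ((dn k1_11).or
    ((dn k1_12).or
    (dn k1_13)))))))))))))) (by decide +kernel)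

end Vale.Agent.P236JH
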