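import Vale.Agent.P236JB.Main
import Vale.Agent.P236JB.C.W12
import Vale.Agent.P236JC.K11_0
import Vale.Agent.P236JC.K11_1
import Vale.Agent.P236JC.K11_2
import Vale.Agent.P236JC.K11_3
import Vale.Agent.P236JC.K11_4
import Vale.Agent.P236JC.K11_5
import Vale.Agent.P236JC.K11_6

/-!
# P236JH : the composite in degree 11 vanishes (generated)
-/

namespace Vale.Agent.P236JH

open Vale.Agent.P236JB Vale.Agent.P236JB.Z Vale.Agent.P236JC

theorem sq11 [Fact (Nat.Prime 3)] : P236JK.Ini.SqJ 11 :=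
  sq_of tabW12 ((dn k11_0).or
    ((dn k11_1).or
    ((dn k11_2).or
    ((dn k11_3).or
    ((dn k11_4).or
    ((dn k11_5).or
    (dn k11_6))))))) (by decide +kernel)

end Vale.Agent.P236JH
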