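import Vale.Agent.P236JB.Main
import Vale.Agent.P236JB.C.W13
import Vale.Agent.P236JC.K12_0
import Vale.Agent.P236JC.K12_1
import Vale.Agent.P236JC.K12_2
import Vale.Agent.P236JC.K12_3
import Vale.Agent.P236JC.K12_4
import Vale.Agent.P236JC.K12_5
import Vale.Agent.P236JC.K12_6
import Vale.Agent.P236JC.K12_7
import Vale.Agent.P236JC.K12_8
import Vale.Agent.P236JC.K12_9
import Vale.Agent.P236JC.K12_10
import Vale.Agent.P236JC.K12_11
import Vale.Agent.P236JC.K12_12
import Vale.Agent.P236JC.K12_13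

/-!
# P236JH : the composite in degree 12 vanishes (generated)
-/

namespace Vale.Agent.P236JH

open Vale.Agent.P236JB Vale.Agent.P236JB.Z Vale.Agent.P236JC

theorem sq12 [Fact (Nat.Prime 3)] : P236JK.Ini.SqJ 12 :=
  sq_of tabW13 ((dn k12_0).or
    ((dn k12_1).or
    ((dn k12_2).or
    ((dn k12_3).or
    ((dn k12_4).or
    ((dn k12_5).or
    ((dn k12_6).or
    ((dn k12_7).or
    ((dn k12_8).or
    ((dn k12_9).or
    ((dn k12_10).or
    ((dn k12_11).or
    ((dn k12_12).or
    (dn k12_13)))))))))))))) (by decide +kernel)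

end Vale.Agent.P236JH
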