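import Vale.Agent.P236JB.Main
import Vale.Agent.P236JB.C.W14
import Vale.Agent.P236JC.K13_0
import Vale.Agent.P236JC.K13_1
import Vale.Agent.P236JC.K13_2

/-!
# P236JH : the composite in degree 13 vanishes (generated)
-/

namespace Vale.Agent.P236JH

open Vale.Agent.P236JB Vale.Agent.P236JB.Z Vale.Agent.P236JC

theorem sq13 [Fact (Nat.Prime 3)] : P236JK.Ini.SqJ 13 :=
  sq_of tabW14 ((dn k13_0).or
    ((dn k13_1).or
    (dn k13_2))) (by decide +kernel)

end Vale.Agent.P236JH
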