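import Vale.Agent.P236JB.Main
import Vale.Agent.P236JB.C.W17
import Vale.Agent.P236JC.K16_0
import Vale.Agent.P236JC.K16_1

/-!
# P236JH : the composite in degree 16 vanishes (generated)
-/

namespace Vale.Agent.P236JH

open Vale.Agent.P236JB Vale.Agent.P236JB.Z Vale.Agent.P236JC

theorem sq16 [Fact (Nat.Prime 3)] : P236JK.Ini.SqJ 16 :=
  sq_of tabW17 ((dn k16_0).or
    (dn k16_1)) (by decide +kernel)

end Vale.Agent.P236JH
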