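import Vale.Agent.P236JB.Main
import Vale.Agent.P236JB.C.W3
import Vale.Agent.P236JC.K2_0
import Vale.Agent.P236JC.K2_1
import Vale.Agent.P236JC.K2_2
import Vale.Agent.P236JC.K2_3
import Vale.Agent.P236JC.K2_4
import Vale.Agent.P236JC.K2_5
import Vale.Agent.P236JC.K2_6
import Vale.Agent.P236JC.K2_7
import Vale.Agent.P236JC.K2_8
import Vale.Agent.P236JC.K2_9
import Vale.Agent.P236JC.K2_10
import Vale.Agent.P236JC.K2_11
import Vale.Agent.P236JC.K2_12
import Vale.Agent.P236JC.K2_13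
import Vale.Agent.P236JC.K2_14
import Vale.Agent.P236JC.K2_15
import Vale.Agent.P236JC.K2_16
import Vale.Agent.P236JC.K2_17
import Vale.Agent.P236JC.K2_18
import Vale.Agent.P236JC.K2_19
import Vale.Agent.P236JC.K2_20
import Vale.Agent.P236JC.K2_21
import Vale.Agent.P236JC.K2_22
import Vale.Agent.P236JC.K2_23
import Vale.Agent.P236JC.K2_24
import Vale.Agent.P236JC.K2_25
import Vale.Agent.P236JC.K2_26
import Vale.Agent.P236JC.K2_27
import Vale.Agent.P236JC.K2_28

/-!
# P236JH : the composite in degree 2 vanishes (generated)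
-/

namespace Vale.Agent.P236JH

open Vale.Agent.P236JB Vale.Agent.P236JB.Z Vale.Agent.P236JC

theorem sq2 [Fact (Nat.Prime 3)] : P236JK.Ini.SqJ 2 :=
  sq_of tabW3 ((dn k2_0).or
    ((dn k2_1).or
    ((dn k2_2).or
    ((dn k2_3).or
    ((dn k2_4).or
    ((dn k2_5).or
    ((dn k2_6).or
    ((dn k2_7).or
    ((dn k2_8).or
    ((dn k2_9).or
    ((dn k2_10).or
    ((dn k2_11).or
    ((dn k2_12).or
    ((dn k2_13).or
    ((dn k2_14).or
    ((dn k2_15).or
    ((dn k2_16).or
    ((dn k2_17).or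
    ((dn k2_18).or
    ((dn k2_19).or
    ((dn k2_20).or
    ((dn k2_21).or
    ((dn k2_22).or
    ((dn k2_23).or
    ((dn k2_24).or
    ((dn k2_25).or
    ((dn k2_26).or
    ((dn k2_27).or
    (dn k2_28))))))))))))))))))))))))))))) (by decide +kernel)

end Vale.Agent.P236JH
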