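import Vale.Agent.P236JB.Main
import Vale.Agent.P236JB.C.W4
import Vale.Agent.P236JC.K3_0
import Vale.Agent.P236JC.K3_1
import Vale.Agent.P236JC.K3_5
import Vale.Agent.P236JC.K3_6
import Vale.Agent.P236JC.K3_10
import Vale.Agent.P236JC.K3_11
import Vale.Agent.P236JC.K3_15
import Vale.Agent.P236JC.K3_16
import Vale.Agent.P236JC.K3_20
import Vale.Agent.P236JC.K3_21
import Vale.Agent.P236JC.K3_22
import Vale.Agent.P236JC.K3_23
import Vale.Agent.P236JC.K3_24
import Vale.Agent.P236JC.K3_25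
import Vale.Agent.P236JC.K3_26
import Vale.Agent.P236JC.K3_27
import Vale.Agent.P236JC.K3_28
import Vale.Agent.P236JC.K3_29
import Vale.Agent.P236JC.K3_30
import Vale.Agent.P236JC.K3_31
import Vale.Agent.P236JC.K3_32

/-!
# P236JH : the composite in degree 3 vanishes (generated)
-/

namespace Vale.Agent.P236JH

open Vale.Agent.P236JB Vale.Agent.P236JB.Z Vale.Agent.P236JC

theorem sq3 [Fact (Nat.Prime 3)] : P236JK.Ini.SqJ 3 :=
  sq_of tabW4 ((dn k3_0).or
    ((dn k3_1).or
    ((dn k3_5).or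
    ((dn k3_6).or
    ((dn k3_10).or
    ((dn k3_11).or
    ((dn k3_15).or
    ((dn k3_16).or
    ((dn k3_20).or
    ((dn k3_21).or
    ((dn k3_22).or
    ((dn k3_23).or
    ((dn k3_24).or
    ((dn k3_25).or
    ((dn k3_26).or
    ((dn k3_27).or
    ((dn k3_28).or
    ((dn k3_29).or
    ((dn k3_30).or
    ((dn k3_31).or
    (dn k3_32))))))))))))))))))))) (by decide +kernel)

end Vale.Agent.P236JH
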