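import Vale.Agent.P236JB.Main
import Vale.Agent.P236JB.C.W5
import Vale.Agent.P236JC.K4_0
import Vale.Agent.P236JC.K4_1
import Vale.Agent.P236JC.K4_2
import Vale.Agent.P236JC.K4_3
import Vale.Agent.P236JC.K4_4
import Vale.Agent.P236JC.K4_5
import Vale.Agent.P236JC.K4_6
import Vale.Agent.P236JC.K4_7
import Vale.Agent.P236JC.K4_8
import Vale.Agent.P236JC.K4_9
import Vale.Agent.P236JC.K4_10
import Vale.Agent.P236JC.K4_11
import Vale.Agent.P236JC.K4_12
import Vale.Agent.P236JC.K4_13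
import Vale.Agent.P236JC.K4_14
import Vale.Agent.P236JC.K4_15
import Vale.Agent.P236JC.K4_16
import Vale.Agent.P236JC.K4_17

/-!
# P236JH : the composite in degree 4 vanishes (generated)
-/

namespace Vale.Agent.P236JH

open Vale.Agent.P236JB Vale.Agent.P236JB.Z Vale.Agent.P236JC

theorem sq4 [Fact (Nat.Prime 3)] : P236JK.Ini.SqJ 4 :=
  sq_of tabW5 ((dn k4_0).or
    ((dn k4_1).or
    ((dn k4_2).or
    ((dn k4_3).or
    ((dn k4_4).or
    ((dn k4_5).or
    ((dn k4_6).or
    ((dn k4_7).or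
    ((dn k4_8).or
    ((dn k4_9).or
    ((dn k4_10).or
    ((dn k4_11).or
    ((dn k4_12).or
    ((dn k4_13).or
    ((dn k4_14).or
    ((dn k4_15).or
    ((dn k4_16).or
    (dn k4_17)))))))))))))))))) (by decide +kernel)

end Vale.Agent.P236JH
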