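import Vale.Agent.P236JB.Main
import Vale.Agent.P236JB.C.W6
import Vale.Agent.P236JC.K5_0
import Vale.Agent.P236JC.K5_1
import Vale.Agent.P236JC.K5_2
import Vale.Agent.P236JC.K5_3
import Vale.Agent.P236JC.K5_4
import Vale.Agent.P236JC.K5_5
import Vale.Agent.P236JC.K5_6
import Vale.Agent.P236JC.K5_7
import Vale.Agent.P236JC.K5_8
import Vale.Agent.P236JC.K5_9
import Vale.Agent.P236JC.K5_10
import Vale.Agent.P236JC.K5_11
import Vale.Agent.P236JC.K5_12
import Vale.Agent.P236JC.K5_13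
import Vale.Agent.P236JC.K5_14
import Vale.Agent.P236JC.K5_15
import Vale.Agent.P236JC.K5_16
import Vale.Agent.P236JC.K5_17
import Vale.Agent.P236JC.K5_18
import Vale.Agent.P236JC.K5_19
import Vale.Agent.P236JC.K5_20
import Vale.Agent.P236JC.K5_21
import Vale.Agent.P236JC.K5_22
import Vale.Agent.P236JC.K5_23
import Vale.Agent.P236JC.K5_24
import Vale.Agent.P236JC.K5_25
import Vale.Agent.P236JC.K5_26
import Vale.Agent.P236JC.K5_27
import Vale.Agent.P236JC.K5_28
import Vale.Agent.P236JC.K5_29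
import Vale.Agent.P236JC.K5_30
import Vale.Agent.P236JC.K5_31
import Vale.Agent.P236JC.K5_32
import Vale.Agent.P236JC.K5_33
import Vale.Agent.P236JC.K5_34
import Vale.Agent.P236JC.K5_35
import Vale.Agent.P236JC.K5_36

/-!
# P236JH : the composite in degree 5 vanishes (generated)
-/

namespace Vale.Agent.P236JH

open Vale.Agent.P236JB Vale.Agent.P236JB.Z Vale.Agent.P236JC

theorem sq5 [Fact (Nat.Prime 3)] : P236JK.Ini.SqJ 5 :=
  sq_of tabW6 ((dn k5_0).or
    ((dn k5_1).or
    ((dn k5_2).or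
    ((dn k5_3).or
    ((dn k5_4).or
    ((dn k5_5).or
    ((dn k5_6).or
    ((dn k5_7).or
    ((dn k5_8).or
    ((dn k5_9).or
    ((dn k5_10).or
    ((dn k5_11).or
    ((dn k5_12).or
    ((dn k5_13).or
    ((dn k5_14).or
    ((dn k5_15).or
    ((dn k5_16).or
    ((dn k5_17).or
    ((dn k5_18).or
    ((dn k5_19).or
    ((dn k5_20).or
    ((dn k5_21).or
    ((dn k5_22).or
    ((dn k5_23).or
    ((dn k5_24).or
    ((dn k5_25).or
    ((dn k5_26).or
    ((dn k5_27).or
    ((dn k5_28).or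
    ((dn k5_29).or
    ((dn k5_30).or
    ((dn k5_31).or
    ((dn k5_32).or
    ((dn k5_33).or
    ((dn k5_34).or
    ((dn k5_35).or
    (dn k5_36))))))))))))))))))))))))))))))))))))) (by decide +kernel)

end Vale.Agent.P236JH
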