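import Vale.Agent.P236JB.Main
import Vale.Agent.P236JB.C.W7
import Vale.Agent.P236JC.K6_0
import Vale.Agent.P236JC.K6_1
import Vale.Agent.P236JC.K6_2
import Vale.Agent.P236JC.K6_3
import Vale.Agent.P236JC.K6_4
import Vale.Agent.P236JC.K6_5
import Vale.Agent.P236JC.K6_6
import Vale.Agent.P236JC.K6_7
import Vale.Agent.P236JC.K6_8
import Vale.Agent.P236JC.K6_9

/-!
# P236JH : the composite in degree 6 vanishes (generated)
-/

namespace Vale.Agent.P236JH

open Vale.Agent.P236JB Vale.Agent.P236JB.Z Vale.Agent.P236JC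

theorem sq6 [Fact (Nat.Prime 3)] : P236JK.Ini.SqJ 6 :=
  sq_of tabW7 ((dn k6_0).or
    ((dn k6_1).or
    ((dn k6_2).or
    ((dn k6_3).or
    ((dn k6_4).or
    ((dn k6_5).or
    ((dn k6_6).or
    ((dn k6_7).or
    ((dn k6_8).or
    (dn k6_9)))))))))) (by decide +kernel)

end Vale.Agent.P236JH
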