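import Vale.Agent.P236JB.Main
import Vale.Agent.P236JB.C.W8
import Vale.Agent.P236JC.K7_0
import Vale.Agent.P236JC.K7_1
import Vale.Agent.P236JC.K7_2
import Vale.Agent.P236JC.K7_3
import Vale.Agent.P236JC.K7_4
import Vale.Agent.P236JC.K7_5
import Vale.Agent.P236JC.K7_6
import Vale.Agent.P236JC.K7_7
import Vale.Agent.P236JC.K7_8
import Vale.Agent.P236JC.K7_9
import Vale.Agent.P236JC.K7_10
import Vale.Agent.P236JC.K7_11
import Vale.Agent.P236JC.K7_12
import Vale.Agent.P236JC.K7_13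
import Vale.Agent.P236JC.K7_14
import Vale.Agent.P236JC.K7_15
import Vale.Agent.P236JC.K7_16
import Vale.Agent.P236JC.K7_17
import Vale.Agent.P236JC.K7_18
import Vale.Agent.P236JC.K7_19
import Vale.Agent.P236JC.K7_20
import Vale.Agent.P236JC.K7_21

/-!
# P236JH : the composite in degree 7 vanishes (generated)
-/

namespace Vale.Agent.P236JH

open Vale.Agent.P236JB Vale.Agent.P236JB.Z Vale.Agent.P236JC

theorem sq7 [Fact (Nat.Prime 3)] : P236JK.Ini.SqJ 7 :=
  sq_of tabW8 ((dn k7_0).or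
    ((dn k7_1).or
    ((dn k7_2).or
    ((dn k7_3).or
    ((dn k7_4).or
    ((dn k7_5).or
    ((dn k7_6).or
    ((dn k7_7).or
    ((dn k7_8).or
    ((dn k7_9).or
    ((dn k7_10).or
    ((dn k7_11).or
    ((dn k7_12).or
    ((dn k7_13).or
    ((dn k7_14).or
    ((dn k7_15).or
    ((dn k7_16).or
    ((dn k7_17).or
    ((dn k7_18).or
    ((dn k7_19).or
    ((dn k7_20).or
    (dn k7_21)))))))))))))))))))))) (by decide +kernel)

end Vale.Agent.P236JH
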