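import Vale.Agent.P236JB.Main
import Vale.Agent.P236JB.C.W9
import Vale.Agent.P236JC.K8_0
import Vale.Agent.P236JC.K8_1
import Vale.Agent.P236JC.K8_2
import Vale.Agent.P236JC.K8_3
import Vale.Agent.P236JC.K8_4
import Vale.Agent.P236JC.K8_5
import Vale.Agent.P236JC.K8_6
import Vale.Agent.P236JC.K8_7

/-!
# P236JH : the composite in degree 8 vanishes (generated)
-/

namespace Vale.Agent.P236JH

open Vale.Agent.P236JB Vale.Agent.P236JB.Z Vale.Agent.P236JC

theorem sq8 [Fact (Nat.Prime 3)] : P236JK.Ini.SqJ 8 :=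
  sq_of tabW9 ((dn k8_0).or
    ((dn k8_1).or
    ((dn k8_2).or
    ((dn k8_3).or
    ((dn k8_4).or
    ((dn k8_5).or
    ((dn k8_6).or
    (dn k8_7)))))))) (by decide +kernel)

end Vale.Agent.P236JH
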