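import Vale.Agent.P236JB.Main
import Vale.Agent.P236JB.C.W10
import Vale.Agent.P236JC.K9_0
import Vale.Agent.P236JC.K9_1
import Vale.Agent.P236JC.K9_2
import Vale.Agent.P236JC.K9_3
import Vale.Agent.P236JC.K9_4
import Vale.Agent.P236JC.K9_5
import Vale.Agent.P236JC.K9_6

/-!
# P236JH : the composite in degree 9 vanishes (generated)
-/

namespace Vale.Agent.P236JH

open Vale.Agent.P236JB Vale.Agent.P236JB.Z Vale.Agent.P236JC

theorem sq9 [Fact (Nat.Prime 3)] : P236JK.Ini.SqJ 9 :=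
  sq_of tabW10 ((dn k9_0).or
    ((dn k9_1).or
    ((dn k9_2).or
    ((dn k9_3).or
    ((dn k9_4).or
    ((dn k9_5).or
    (dn k9_6))))))) (by decide +kernel)

end Vale.Agent.P236JH
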