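import Vale.Agent.P236JB.Main
import Vale.Agent.P236JB.C.W1
import Vale.Agent.P236JC.K0_0
import Vale.Agent.P236JC.K0_1
import Vale.Agent.P236JC.K0_2
import Vale.Agent.P236JC.K0_3

/-!
# P236JH : the composite in degree 0 vanishes (generated)
-/

namespace Vale.Agent.P236JH

open Vale.Agent.P236JB Vale.Agent.P236JB.Z Vale.Agent.P236JC

theorem sq0 [Fact (Nat.Prime 3)] : P236JK.Ini.SqJ 0 :=
  sq_of tabW1 ((dn k0_0).or
    ((dn k0_1).or
    ((dn k0_2).or
    (dn k0_3)))) (by decide +kernel)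

end Vale.Agent.P236JH
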